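import Vale.Agent.P300.H673.End

/-! The end of the proof with pairs of entire curves `α i w = α' i w⁻¹` (rational curves). -/

set_option autoImplicit false

namespace Vale.Agent.P300.H673

open scoped Manifold ContDiff Topology
open Set Topology

theorem preconn_ne_zero : IsPreconnected ({0}ᶜ : Set ℂ) :=
  (isConnected_compl_singleton_of_one_lt_rank (by simp [Complex.rank_real_complex]) 0).isPreconnected

/-- A holomorphic function is constant on the lifts of rational curves, given by two entire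
curves. -/
theorem const_on_entire {E : Type*} [NormedAddCommGroup E] [NormedSpace ℂ E]
    {X : Type*} [TopologicalSpace X] [ChartedSpace E X]
    {Y : Type*} [TopologicalSpace Y] [ChartedSpace E Y]
    {p : Y → X} (hp : IsHolomorphicCovering E p) {α α' : C(ℂ, X)}
    (hα : ContMDiff 𝓘(ℂ) 𝓘(ℂ, E) ω α) (hinv : ∀ w : ℂ, w ≠ 0 → α w = α' w⁻¹)
    (L : C(ℂ, Y)) (hL : p ∘ L = α) {g : Y → ℂ} (hg : ContMDiff 𝓘(ℂ, E) 𝓘(ℂ) ω g) (a b : ℂ) :
    g (L a) = g (L b) := by
  have h1 : p (L 1) = α' 1 := by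
    have := congrFun hL 1
    simp only [Function.comp_apply] at this
    rw [this, hinv 1 one_ne_zero, inv_one]
  obtain ⟨L', ⟨hL'1, hL'⟩, -⟩ := hp.1.existsUnique_continuousMap_lifts α' 1 (L 1) h1
  have h2 : EqOn L (fun w => L' w⁻¹) {0}ᶜ := by
    refine hp.1.eqOn_of_comp_eqOn preconn_ne_zero L.continuous.continuousOn ?_ ?_
      (a := (1 : ℂ)) (by simp) (by simp [hL'1])
    · exact L'.continuous.comp_continuousOn (continuousOn_inv₀)
    · intro w hw
      have h3 := congrFun hL w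
      have h4 := congrFun hL' w⁻¹
      simp only [Function.comp_apply] at h3 h4 ⊢
      rw [h3, h4, hinv w hw]
  have h5 : Differentiable ℂ (g ∘ L) := by
    have h6 : ContMDiff 𝓘(ℂ) 𝓘(ℂ) ω (g ∘ L) :=
      hg.comp (lift_holomorphic hp.2.2 hα L.continuous fun a => congrFun hL a)
    exact h6.contDiff.differentiable (by simp)
  have h7 : Bornology.IsBounded (range (g ∘ L)) := by
    have h8 : IsCompact (g '' (L '' Metric.closedBall 0 1) ∪ g '' (L' '' Metric.closedBall 0 1)) :=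
      (((isCompact_closedBall 0 1).image L.continuous).image hg.continuous).union
        (((isCompact_closedBall 0 1).image L'.continuous).image hg.continuous)
    refine h8.isBounded.subset ?_
    rintro _ ⟨w, rfl⟩
    by_cases hw : ‖w‖ ≤ 1
    · exact Or.inl ⟨L w, ⟨w, by simpa using hw, rfl⟩, rfl⟩
    · refine Or.inr ⟨L' w⁻¹, ⟨w⁻¹, ?_, rfl⟩, ?_⟩
      · simp only [Metric.mem_closedBall, dist_zero_right, norm_inv]
        exact inv_le_one_of_one_le₀ (not_le.1 hw).le
      · rw [Function.comp_apply, h2 (x := w)]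
        intro h0
        rw [mem_singleton_iff] at h0
        rw [h0] at hw
        simp at hw
  exact h5.apply_eq_apply_of_bounded h7 a b

universe u

/-- **The end of the disproof, rational curves given by pairs of entire curves.** -/
theorem not_convex_entire {E : Type*} [NormedAddCommGroup E] [NormedSpace ℂ E]
    {X : Type u} [TopologicalSpace X] [T1Space X] [ChartedSpace E X]
    {ι : Type*} {α α' : ι → C(ℂ, X)} (hα : ∀ i, ContMDiff 𝓘(ℂ) 𝓘(ℂ, E) ω (α i))
    (hinv : ∀ (i : ι) (w : ℂ), w ≠ 0 → α i w = α' i w⁻¹)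
    {D : Set X} (hD : D.Finite)
    (tower : ∀ N : ℕ, ∃ (Z : Type u) (_ : TopologicalSpace Z) (q : Z → X) (_ : IsCoveringMap q)
      (z₀ : Z) (S : Finset Z), q z₀ ∈ D ∧ N ≤ S.card ∧ ∀ z ∈ S, H527.Chn α q z₀ z ∧ q z ∈ D)
    {Y : Type*} [TopologicalSpace Y] [ChartedSpace E Y] [SimplyConnectedSpace Y]
    {p : Y → X} (hp : IsHolomorphicCovering E p) :
    ∃ y₀ : Y, p y₀ ∈ D ∧ ¬ IsCompact (holomorphicHull E {y₀}) := by
  have h1 : LocallyPathConnectedSpace Y := ChartedSpace.locallyPathConnectedSpace E Y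
  obtain ⟨y₀, h3, h4⟩ := H527.not_compact_hull (A := fun _ : ι => ℂ) hp.1 hp.2.1 hD tower
  refine ⟨y₀, h3, ?_⟩
  exact h4 {g | ContMDiff 𝓘(ℂ, E) 𝓘(ℂ) ω g} fun g hg i L hL a b =>
    const_on_entire hp (hα i) (hinv i) L hL hg a b

/-- The same, with the existence of the universal covering. -/
theorem not_convex_entire_universal {E : Type*} [NormedAddCommGroup E] [NormedSpace ℂ E]
    [FiniteDimensional ℂ E]
    {X : Type} [TopologicalSpace X] [T2Space X] [ConnectedSpace X] [ChartedSpace E X]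
    [IsManifold 𝓘(ℂ, E) ω X]
    {ι : Type*} {α α' : ι → C(ℂ, X)} (hα : ∀ i, ContMDiff 𝓘(ℂ) 𝓘(ℂ, E) ω (α i))
    (hinv : ∀ (i : ι) (w : ℂ), w ≠ 0 → α i w = α' i w⁻¹)
    {D : Set X} (hD : D.Finite)
    (tower : ∀ N : ℕ, ∃ (Z : Type) (_ : TopologicalSpace Z) (q : Z → X) (_ : IsCoveringMap q)
      (z₀ : Z) (S : Finset Z), q z₀ ∈ D ∧ N ≤ S.card ∧ ∀ z ∈ S, H527.Chn α q z₀ z ∧ q z ∈ D) :
    (∃ (Y : Type) (_ : TopologicalSpace Y) (_ : ChartedSpace E Y) (p : Y → X),
      T2Space Y ∧ SimplyConnectedSpace Y ∧ IsManifold 𝓘(ℂ, E) ω Y ∧ IsHolomorphicCovering E p ∧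
      ¬ HolomorphicallyConvex E Y) ∧
    ∀ (Y : Type) [TopologicalSpace Y] [ChartedSpace E Y] [SimplyConnectedSpace Y] (p : Y → X),
      IsHolomorphicCovering E p → ¬ HolomorphicallyConvex E Y := by
  have key : ∀ (Y : Type) [TopologicalSpace Y] [ChartedSpace E Y] [SimplyConnectedSpace Y]
      (p : Y → X), IsHolomorphicCovering E p → ¬ HolomorphicallyConvex E Y := by
    intro Y _ _ _ p hp hc
    obtain ⟨y₀, -, h⟩ := not_convex_entire hα hinv hD tower hp
    exact h (hc {y₀} isCompact_singleton (singleton_nonempty y₀))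
  refine ⟨?_, key⟩
  obtain ⟨Y, tY, cY, p, h1, h2, h3, h4⟩ := exists_universal E X
  exact ⟨Y, tY, cY, p, h1, h2, h3, h4, key Y p h4⟩

end Vale.Agent.P300.H673
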