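import Vale.Agent.P300.H673.UC
import Vale.Agent.P300.H527.Chain

/-! The end of the proof for complex manifolds: holomorphic functions on the universal covering
are constant on the lifts of the compact curves `α i`. -/

set_option autoImplicit false

namespace Vale.Agent.P300.H673

open scoped Manifold ContDiff Topology
open Set Topology

variable {E : Type*} [NormedAddCommGroup E] [NormedSpace ℂ E]
  {X : Type*} [TopologicalSpace X] [ChartedSpace E X]
  {Y : Type*} [TopologicalSpace Y] [ChartedSpace E Y]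
  {F : Type*} [NormedAddCommGroup F] [NormedSpace ℂ F]
  {A : Type*} [TopologicalSpace A] [ChartedSpace F A]

/-- lifts of holomorphic maps through holomorphic local homeomorphisms are holomorphic -/
theorem lift_holomorphic {p : Y → X} (hp : IsLocalDiffeomorph 𝓘(ℂ, E) 𝓘(ℂ, E) ω p)
    {f : A → X} (hf : ContMDiff 𝓘(ℂ, F) 𝓘(ℂ, E) ω f) {L : A → Y} (hL : Continuous L)
    (hpL : ∀ a, p (L a) = f a) : ContMDiff 𝓘(ℂ, F) 𝓘(ℂ, E) ω L := by
  intro a
  have h := hp (L a)
  have hloc := h.localInverse_contMDiffAt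
  rw [hpL a] at hloc
  have hcomp : ContMDiffAt 𝓘(ℂ, F) 𝓘(ℂ, E) ω (h.localInverse ∘ f) a :=
    hloc.comp a (hf a)
  refine hcomp.congr_of_eventuallyEq ?_
  have hmem : ∀ᶠ u in 𝓝 a, L u ∈ h.localInverse.target :=
    hL.continuousAt.eventually_mem
      (h.localInverse.open_target.mem_nhds h.localInverse_mem_target)
  filter_upwards [hmem] with u hu
  have := h.localInverse_left_inv hu
  rw [hpL u] at this
  exact this.symm

/-- a holomorphic function is constant on a lift of a compact connected complex manifold -/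
theorem const_on_lift [IsManifold 𝓘(ℂ, F) 1 A] [CompactSpace A] [PreconnectedSpace A] {p : Y → X}
    (hp : IsLocalDiffeomorph 𝓘(ℂ, E) 𝓘(ℂ, E) ω p)
    {f : A → X} (hf : ContMDiff 𝓘(ℂ, F) 𝓘(ℂ, E) ω f) {L : A → Y} (hL : Continuous L)
    (hpL : ∀ a, p (L a) = f a) {g : Y → ℂ} (hg : ContMDiff 𝓘(ℂ, E) 𝓘(ℂ) ω g) (a b : A) :
    g (L a) = g (L b) := by
  have h1 : ContMDiff 𝓘(ℂ, F) 𝓘(ℂ) ω (g ∘ L) := hg.comp (lift_holomorphic hp hf hL hpL)
  exact (h1.mdifferentiable (by simp)).apply_eq_of_compactSpace a b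

end Vale.Agent.P300.H673

namespace Vale.Agent.P300.H673

open scoped Manifold ContDiff Topology
open Set Topology

universe u v

/-- **The end of the disproof.** `X` a complex manifold, `α i : A i → X` holomorphic maps from simply
connected compact complex manifolds (copies of the Riemann sphere), such that the preimages of
the union of their images in suitable coverings of `X` contain chains with arbitrarily many nodes;
then no simply connected covering of `X` is holomorphically convex; in fact the hull of a point is not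
compact. -/
theorem not_convex {E : Type*} [NormedAddCommGroup E] [NormedSpace ℂ E]
    {X : Type u} [TopologicalSpace X] [T1Space X] [ChartedSpace E X]
    {F : Type*} [NormedAddCommGroup F] [NormedSpace ℂ F]
    {ι : Type*} {A : ι → Type v} [∀ i, TopologicalSpace (A i)] [∀ i, ChartedSpace F (A i)]
    [∀ i, IsManifold 𝓘(ℂ, F) 1 (A i)] [∀ i, CompactSpace (A i)]
    [∀ i, SimplyConnectedSpace (A i)]
    {α : ∀ i, C(A i, X)} (hα : ∀ i, ContMDiff 𝓘(ℂ, F) 𝓘(ℂ, E) ω (α i))
    {D : Set X} (hD : D.Finite)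
    (tower : ∀ N : ℕ, ∃ (Z : Type u) (_ : TopologicalSpace Z) (q : Z → X) (_ : IsCoveringMap q)
      (z₀ : Z) (S : Finset Z), q z₀ ∈ D ∧ N ≤ S.card ∧ ∀ z ∈ S, H527.Chn α q z₀ z ∧ q z ∈ D)
    {Y : Type*} [TopologicalSpace Y] [ChartedSpace E Y] [SimplyConnectedSpace Y]
    {p : Y → X} (hp : IsHolomorphicCovering E p) :
    ∃ y₀ : Y, p y₀ ∈ D ∧ ¬ IsCompact (holomorphicHull E {y₀}) := by
  have h1 : LocallyPathConnectedSpace Y := ChartedSpace.locallyPathConnectedSpace E Y
  have h2 : ∀ i, LocallyPathConnectedSpace (A i) := fun i =>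
    ChartedSpace.locallyPathConnectedSpace F (A i)
  obtain ⟨y₀, h3, h4⟩ := H527.not_compact_hull hp.1 hp.2.1 hD tower
  refine ⟨y₀, h3, ?_⟩
  have h5 := h4 {g | ContMDiff 𝓘(ℂ, E) 𝓘(ℂ) ω g} fun g hg i L hL a b =>
    const_on_lift hp.2.2 (hα i) L.continuous (fun a => congrFun hL a) hg a b
  have h6 : H527.hull {g : Y → ℂ | ContMDiff 𝓘(ℂ, E) 𝓘(ℂ) ω g} {y₀} = holomorphicHull E {y₀} := by
    ext v
    exact Iff.rfl
  rwa [h6] at h5

/-- The same, with the existence of the universal covering. -/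
theorem not_convex_universal {E : Type*} [NormedAddCommGroup E] [NormedSpace ℂ E]
    [FiniteDimensional ℂ E]
    {X : Type} [TopologicalSpace X] [T2Space X] [ConnectedSpace X] [ChartedSpace E X]
    [IsManifold 𝓘(ℂ, E) ω X]
    {F : Type*} [NormedAddCommGroup F] [NormedSpace ℂ F]
    {ι : Type*} {A : ι → Type v} [∀ i, TopologicalSpace (A i)] [∀ i, ChartedSpace F (A i)]
    [∀ i, IsManifold 𝓘(ℂ, F) 1 (A i)] [∀ i, CompactSpace (A i)]
    [∀ i, SimplyConnectedSpace (A i)]
    {α : ∀ i, C(A i, X)} (hα : ∀ i, ContMDiff 𝓘(ℂ, F) 𝓘(ℂ, E) ω (α i))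
    {D : Set X} (hD : D.Finite)
    (tower : ∀ N : ℕ, ∃ (Z : Type) (_ : TopologicalSpace Z) (q : Z → X) (_ : IsCoveringMap q)
      (z₀ : Z) (S : Finset Z), q z₀ ∈ D ∧ N ≤ S.card ∧ ∀ z ∈ S, H527.Chn α q z₀ z ∧ q z ∈ D) :
    (∃ (Y : Type) (_ : TopologicalSpace Y) (_ : ChartedSpace E Y) (p : Y → X),
      T2Space Y ∧ SimplyConnectedSpace Y ∧ IsManifold 𝓘(ℂ, E) ω Y ∧ IsHolomorphicCovering E p ∧
      ¬ HolomorphicallyConvex E Y) ∧
    ∀ (Y : Type) [TopologicalSpace Y] [ChartedSpace E Y] [SimplyConnectedSpace Y] (p : Y → X),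
      IsHolomorphicCovering E p → ¬ HolomorphicallyConvex E Y := by
  have key : ∀ (Y : Type) [TopologicalSpace Y] [ChartedSpace E Y] [SimplyConnectedSpace Y]
      (p : Y → X), IsHolomorphicCovering E p → ¬ HolomorphicallyConvex E Y := by
    intro Y _ _ _ p hp hc
    obtain ⟨y₀, -, h⟩ := not_convex hα hD tower hp
    exact h (hc {y₀} isCompact_singleton (singleton_nonempty y₀))
  refine ⟨?_, key⟩
  obtain ⟨Y, tY, cY, p, h1, h2, h3, h4⟩ := exists_universal E X
  exact ⟨Y, tY, cY, p, h1, h2, h3, h4, key Y p h4⟩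

end Vale.Agent.P300.H673
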