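import Vale.Agent.P300.H573.CmpCov

/-!
# P300, block [SPH] (second half): finite fibres of `proj : D.Cmp → Y` (helper673)
-/

open Topology Filter Set

namespace Vale.Agent.P300.H573.Models

variable {Y X0 : Type} [TopologicalSpace Y] [TopologicalSpace X0] {q : X0 → Y} (D : Models q)

/-- the fibre of `proj` over a point of the base chart `a` -/
theorem fibre_eq [T2Space Y] [LocallyCompactSpace Y] {a : D.A} {y : Y} (hy : y ∈ D.N a) :
    D.proj ⁻¹' {y} = ⋃ i ∈ {i | D.b i = a}, D.hat i '' (D.m i ⁻¹' {y}) := by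
  ext x
  constructor
  · intro hx
    have hx' : D.proj x = y := hx
    obtain ⟨i, hi, p, rfl⟩ := D.exists_hat_of_mem x a (by rw [hx']; exact hy)
    rw [D.proj_hat] at hx'
    exact mem_biUnion hi ⟨p, hx', rfl⟩
  · intro hx
    obtain ⟨i, -, hx⟩ := mem_iUnion₂.1 hx
    obtain ⟨p, hp, rfl⟩ := hx
    show D.proj (D.hat i p) = y
    rw [D.proj_hat]; exact hp

/-- **the fibres of `proj` are finite** (finitely many pieces over each base chart) -/
theorem finite_fibre' [T2Space Y] [LocallyCompactSpace Y]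
    (hfin : ∀ a, {i | D.b i = a}.Finite) (y : Y) : (D.proj ⁻¹' {y}).Finite := by
  obtain ⟨a, ha⟩ := D.cover y
  rw [D.fibre_eq ha]
  exact (hfin a).biUnion fun i _ => (D.fin i y).image _

/-- **the fibres of `proj` are finite** (finitely many pieces) -/
theorem finite_fibre [T2Space Y] [LocallyCompactSpace Y] [Finite D.I] (y : Y) :
    (D.proj ⁻¹' {y}).Finite :=
  D.finite_fibre' (fun _ => Set.toFinite _) y

/-- every point of the completion has a neighbourhood which meets its fibre only in that point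
(any number of pieces) -/
theorem exists_nhds_fibre [T2Space Y] [LocallyCompactSpace Y] (x : D.Cmp) :
    ∃ V ∈ 𝓝 x, ∀ x' ∈ V, D.proj x' = D.proj x → x' = x := by
  obtain ⟨i, p, rfl⟩ := D.exists_hat x
  have hf : (D.m i ⁻¹' {D.m i p} \ {p}).Finite := (D.fin i _).subset sdiff_subset
  have hU : (D.m i ⁻¹' {D.m i p} \ {p})ᶜ ∈ 𝓝 p :=
    hf.isClosed.isOpen_compl.mem_nhds (by simp)
  refine ⟨D.hat i '' (D.m i ⁻¹' {D.m i p} \ {p})ᶜ,
    (D.isOpenMap_hat i).image_mem_nhds hU, ?_⟩
  rintro _ ⟨p', hp', rfl⟩ h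
  rw [D.proj_hat, D.proj_hat] at h
  by_contra hne
  apply hp'
  exact ⟨h, fun hp => hne (by rw [mem_singleton_iff.1 hp])⟩

/-- the fibres of `proj` are totally disconnected (any number of pieces) -/
theorem isTotallyDisconnected_fibre [T2Space Y] [LocallyCompactSpace Y] (y : Y) :
    IsTotallyDisconnected (D.proj ⁻¹' {y}) := by
  intro t ht hc x hx z hz
  by_contra hne
  obtain ⟨V, hV, hV'⟩ := D.exists_nhds_fibre x
  obtain ⟨W, hWV, hWo, hxW⟩ := mem_nhds_iff.1 hV
  obtain ⟨w, hwt, hwW, hwx⟩ := hc W {x}ᶜ hWo (isClosed_singleton (x := x)).isOpen_compl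
    (fun w _ => by
      by_cases h : w = x
      · subst h; exact Or.inl hxW
      · exact Or.inr h) ⟨x, hx, hxW⟩ ⟨z, hz, Ne.symm hne⟩
  refine hwx (hV' w (hWV hwW) ?_)
  rw [show D.proj w = y from ht hwt, show D.proj x = y from ht hx]

end Vale.Agent.P300.H573.Models
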