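import Mathlib
import Vale.Agent.P300.Defs
import Vale.Agent.P300.CoverDefs

/-! Complex structure on a covering space: charts lifted through a local homeomorphism. -/

set_option autoImplicit false

namespace Vale.Agent.P300.H673

open scoped Manifold ContDiff Topology
open Set

section lift

variable {E : Type*} [NormedAddCommGroup E] [NormedSpace ℂ E]
  {X : Type*} [TopologicalSpace X] [ChartedSpace E X]
  {Y : Type*} [TopologicalSpace Y] {p : Y → X}

/-- a local inverse of `p` near `y`. -/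
noncomputable def loc (hp : IsLocalHomeomorph p) (y : Y) : OpenPartialHomeomorph Y X :=
  (hp y).choose

theorem mem_loc (hp : IsLocalHomeomorph p) (y : Y) : y ∈ (loc hp y).source :=
  (hp y).choose_spec.1

theorem coe_loc (hp : IsLocalHomeomorph p) (y : Y) : ⇑(loc hp y) = p :=
  (hp y).choose_spec.2.symm

theorem loc_right (hp : IsLocalHomeomorph p) (y : Y) {x : X} (hx : x ∈ (loc hp y).target) :
    p ((loc hp y).symm x) = x := by
  have h1 := (loc hp y).right_inv hx
  rwa [congrFun (coe_loc hp y) ((loc hp y).symm x)] at h1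

/-- The charts of `X` lifted to `Y`. -/
@[reducible] noncomputable def liftCharted (E : Type*) [NormedAddCommGroup E] [NormedSpace ℂ E]
    {X : Type*} [TopologicalSpace X] [ChartedSpace E X]
    {Y : Type*} [TopologicalSpace Y] {p : Y → X} (hp : IsLocalHomeomorph p) :
    ChartedSpace E Y where
  atlas := {e | ∃ (f : OpenPartialHomeomorph Y X) (c : OpenPartialHomeomorph X E),
    ⇑f = p ∧ c ∈ atlas E X ∧ e = f ≫ₕ c}
  chartAt y := loc hp y ≫ₕ chartAt E (p y)
  mem_chart_source y := by
    simp only [OpenPartialHomeomorph.trans_source, mem_inter_iff, mem_preimage, coe_loc]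
    exact ⟨mem_loc hp y, mem_chart_source E (p y)⟩
  chart_mem_atlas y := ⟨loc hp y, chartAt E (p y), coe_loc hp y, chart_mem_atlas E (p y), rfl⟩

theorem liftManifold (hp : IsLocalHomeomorph p) [IsManifold 𝓘(ℂ, E) ω X] :
    @IsManifold ℂ _ E _ _ E _ 𝓘(ℂ, E) ω Y _ (liftCharted E hp) := by
  let : ChartedSpace E Y := liftCharted E hp
  refine isManifold_of_contDiffOn 𝓘(ℂ, E) ω Y ?_
  rintro e e' ⟨f, c, hf, hc, rfl⟩ ⟨f', c', hf', hc', rfl⟩
  have h1 := (contDiffGroupoid ω 𝓘(ℂ, E)).compatible hc hc'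
  have h3 : ContDiffOn ℂ ω (c.symm ≫ₕ c') (c.symm ≫ₕ c').source := by
    rw [contDiffGroupoid, mem_groupoid_of_pregroupoid] at h1
    have h5 := h1.1
    simp only [contDiffPregroupoid] at h5
    simpa using h5
  simp only [modelWithCornersSelf_coe, modelWithCornersSelf_coe_symm, Function.id_comp,
    Function.comp_id, range_id, inter_univ, preimage_id]
  have key : ∀ u ∈ ((f ≫ₕ c).symm ≫ₕ (f' ≫ₕ c')).source,
      u ∈ (c.symm ≫ₕ c').source ∧ ((f ≫ₕ c).symm ≫ₕ (f' ≫ₕ c')) u = (c.symm ≫ₕ c') u := by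
    intro u hu
    simp only [OpenPartialHomeomorph.trans_source, OpenPartialHomeomorph.trans_symm_eq_symm_trans_symm,
      OpenPartialHomeomorph.symm_source, mem_inter_iff, mem_preimage,
      OpenPartialHomeomorph.coe_trans, Function.comp_apply] at hu ⊢
    obtain ⟨⟨h5, h6⟩, h7, h8⟩ := hu
    have h9 : f' (f.symm (c.symm u)) = c.symm u := by
      rw [hf', ← hf, f.right_inv h6]
    rw [h9] at h8 ⊢
    exact ⟨⟨h5, h8⟩, rfl⟩
  exact (h3.mono fun u hu => (key u hu).1).congr fun u hu => (key u hu).2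

theorem liftLocalDiffeo (hp : IsLocalHomeomorph p) [IsManifold 𝓘(ℂ, E) ω X] :
    @IsLocalDiffeomorph ℂ _ E _ _ E _ _ E _ E _ 𝓘(ℂ, E) 𝓘(ℂ, E) Y _ (liftCharted E hp) X _ _ ω p := by
  let : ChartedSpace E Y := liftCharted E hp
  have : IsManifold 𝓘(ℂ, E) ω Y := liftManifold hp
  intro y
  have hsm : ContMDiff 𝓘(ℂ, E) 𝓘(ℂ, E) ω p := by
    intro z
    rw [contMDiffAt_iff]
    refine ⟨hp.continuous.continuousAt, ?_⟩
    have h0 : ContDiffWithinAt ℂ ω (id : E → E) (range 𝓘(ℂ, E)) (extChartAt 𝓘(ℂ, E) z z) :=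
      contDiffWithinAt_id
    have hm : (extChartAt 𝓘(ℂ, E) z).target ∈ 𝓝 (extChartAt 𝓘(ℂ, E) z z) :=
      extChartAt_target_mem_nhds (I := 𝓘(ℂ, E)) z
    have hm2 : ∀ u ∈ (extChartAt 𝓘(ℂ, E) z).target,
      (extChartAt 𝓘(ℂ, E) (p z) ∘ p ∘ (extChartAt 𝓘(ℂ, E) z).symm) u = id u := by
      intro u hu
      have e1 : chartAt E z = loc hp z ≫ₕ chartAt E (p z) := rfl
      simp only [extChartAt, OpenPartialHomeomorph.extend_target, e1, modelWithCornersSelf_coe_symm,
        preimage_id, OpenPartialHomeomorph.trans_target, mem_inter_iff] at hu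
      simp only [extChartAt, e1, Function.comp_apply, OpenPartialHomeomorph.extend_coe,
        OpenPartialHomeomorph.extend_coe_symm, modelWithCornersSelf_coe,
        modelWithCornersSelf_coe_symm, id_eq, OpenPartialHomeomorph.coe_trans_symm]
      have h4 : p ((loc hp z).symm ((chartAt E (p z)).symm u)) = (chartAt E (p z)).symm u :=
        loc_right hp z hu.1.2
      rw [h4]
      exact (chartAt E (p z)).right_inv hu.1.1
    refine h0.congr_of_eventuallyEq ?_ ?_
    · simp only [modelWithCornersSelf_coe, range_id, nhdsWithin_univ]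
      filter_upwards [hm] with u hu using hm2 u hu
    · exact hm2 _ (mem_extChartAt_target (I := 𝓘(ℂ, E)) z)
  refine ⟨⟨(loc hp y).toPartialEquiv, (loc hp y).open_source, (loc hp y).open_target, ?_, ?_⟩,
    mem_loc hp y, fun z _ => by
      change p z = loc hp y z
      rw [coe_loc]⟩
  · change ContMDiffOn 𝓘(ℂ, E) 𝓘(ℂ, E) ω (loc hp y) (loc hp y).source
    rw [coe_loc]
    exact hsm.contMDiffOn
  · change ContMDiffOn 𝓘(ℂ, E) 𝓘(ℂ, E) ω (loc hp y).symm (loc hp y).target
    intro x hx
    refine ContMDiffAt.contMDiffWithinAt ?_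
    rw [contMDiffAt_iff]
    refine ⟨(loc hp y).symm.continuousAt hx, ?_⟩
    have h0 : ContDiffWithinAt ℂ ω (id : E → E) (range 𝓘(ℂ, E)) (extChartAt 𝓘(ℂ, E) x x) :=
      contDiffWithinAt_id
    have e0 : ∀ w ∈ (loc hp y).target, p ((loc hp y).symm w) = w := fun w hw => loc_right hp y hw
    have hm : (extChartAt 𝓘(ℂ, E) x).target ∩ (extChartAt 𝓘(ℂ, E) x).symm ⁻¹' (loc hp y).target ∈
        𝓝 (extChartAt 𝓘(ℂ, E) x x) := by
      refine Filter.inter_mem (extChartAt_target_mem_nhds (I := 𝓘(ℂ, E)) x) ?_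
      exact (continuousAt_extChartAt_symm (I := 𝓘(ℂ, E)) x).preimage_mem_nhds
        (by rw [extChartAt_to_inv]; exact (loc hp y).open_target.mem_nhds hx)
    have hm2 : ∀ u ∈ (extChartAt 𝓘(ℂ, E) x).target ∩
          (extChartAt 𝓘(ℂ, E) x).symm ⁻¹' (loc hp y).target,
        (extChartAt 𝓘(ℂ, E) ((loc hp y).symm x) ∘ (loc hp y).symm ∘
          (extChartAt 𝓘(ℂ, E) x).symm) u = id u := by
      rintro u ⟨hu, hu'⟩
      have e1 : chartAt E ((loc hp y).symm x) =
        loc hp ((loc hp y).symm x) ≫ₕ chartAt E (p ((loc hp y).symm x)) := rfl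
      rw [e0 x hx] at e1
      simp only [extChartAt, OpenPartialHomeomorph.extend_target, modelWithCornersSelf_coe_symm,
        preimage_id, mem_inter_iff] at hu
      simp only [extChartAt, OpenPartialHomeomorph.extend_coe_symm, modelWithCornersSelf_coe_symm,
        Function.comp_id, mem_preimage] at hu'
      simp only [extChartAt, e1, Function.comp_apply, OpenPartialHomeomorph.extend_coe,
        OpenPartialHomeomorph.extend_coe_symm, modelWithCornersSelf_coe,
        modelWithCornersSelf_coe_symm, id_eq, OpenPartialHomeomorph.coe_trans, coe_loc]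
      rw [e0 _ hu']
      exact (chartAt E x).right_inv hu.1
    refine h0.congr_of_eventuallyEq ?_ ?_
    · simp only [modelWithCornersSelf_coe, range_id, nhdsWithin_univ]
      filter_upwards [hm] with u hu using hm2 u hu
    · exact hm2 _ (mem_of_mem_nhds hm)

end lift

end Vale.Agent.P300.H673
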