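import Vale.Agent.P300.H673.Lift
import Vale.Agent.P223.X.U3

/-! Existence of the universal covering of a connected complex manifold. -/

set_option autoImplicit false

namespace Vale.Agent.P300.H673

open scoped Manifold ContDiff Topology
open Set Topology

/-- an open embedding of `ℝⁿ` through every point -/
theorem exists_openEmbedding (E : Type*) [NormedAddCommGroup E] [NormedSpace ℂ E]
    [FiniteDimensional ℂ E] (X : Type*) [TopologicalSpace X] [ChartedSpace E X] :
    ∃ n : ℕ, ∀ m : X, ∃ β : (Fin n → ℝ) → X, IsOpenEmbedding β ∧ m ∈ range β := by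
  let : NormedSpace ℝ E := NormedSpace.restrictScalars ℝ ℂ E
  have : FiniteDimensional ℝ E := FiniteDimensional.trans ℝ ℂ E
  let n := Module.finrank ℝ E
  let L : (Fin n → ℝ) ≃L[ℝ] E :=
    ContinuousLinearEquiv.ofFinrankEq (by simp [n])
  refine ⟨n, fun m => ?_⟩
  let c := chartAt E m
  have hm : c m ∈ c.target := c.map_source (mem_chart_source E m)
  obtain ⟨r, hr, hrc⟩ := Metric.isOpen_iff.1 c.open_target (c m) hm
  let b := OpenPartialHomeomorph.univBall (c m) r
  let e : OpenPartialHomeomorph (Fin n → ℝ) X :=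
    L.toHomeomorph.toOpenPartialHomeomorph ≫ₕ b ≫ₕ c.symm
  have hs : e.source = univ := by
    refine eq_univ_of_forall fun x => ?_
    simp only [e, OpenPartialHomeomorph.trans_source, Homeomorph.toOpenPartialHomeomorph_source,
      univ_inter, mem_preimage, mem_inter_iff, OpenPartialHomeomorph.symm_source]
    refine ⟨by simp [b], hrc ?_⟩
    rw [← OpenPartialHomeomorph.univBall_target (c m) hr]
    exact b.map_source (by simp [b])
  refine ⟨e, e.isOpenEmbedding hs, ⟨L.symm 0, ?_⟩⟩
  have h1 : e (L.symm 0) = c.symm (b (L (L.symm 0))) := rfl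
  rw [h1, L.apply_symm_apply, OpenPartialHomeomorph.univBall_apply_zero]
  exact c.left_inv (mem_chart_source E m)

/-- **Universal covering of a connected complex manifold.** -/
theorem exists_universal (E : Type*) [NormedAddCommGroup E] [NormedSpace ℂ E]
    [FiniteDimensional ℂ E] (X : Type) [TopologicalSpace X] [T2Space X] [ConnectedSpace X]
    [ChartedSpace E X] [IsManifold 𝓘(ℂ, E) ω X] :
    ∃ (Y : Type) (_ : TopologicalSpace Y) (_ : ChartedSpace E Y) (p : Y → X),
      T2Space Y ∧ SimplyConnectedSpace Y ∧ IsManifold 𝓘(ℂ, E) ω Y ∧ IsHolomorphicCovering E p := by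
  obtain ⟨n, hn⟩ := exists_openEmbedding E X
  obtain ⟨Y, Γ, tY, -, -, π, h1, h2, -, -, h3, h4, -⟩ := Vale.Agent.P223.X.U.main n X hn
  refine ⟨Y, tY, liftCharted E h3.isLocalHomeomorph, π, h2, h1, liftManifold _, h3, h4,
    liftLocalDiffeo _⟩

end Vale.Agent.P300.H673
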